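import Vale.Agent.P154.End.Semi.Main
import Vale.Agent.P154.End.Semi.FlowData.P0
import Vale.Agent.P154.End.Semi.FlowData.P1
import Vale.Agent.P154.End.Semi.FlowData.P2
import Vale.Agent.P154.End.Semi.FlowData.P3
import Vale.Agent.P154.End.Semi.FlowData.P4
import Vale.Agent.P154.End.Semi.FlowData.P5
import Vale.Agent.P154.End.Semi.FlowData.P6
import Vale.Agent.P154.End.Semi.FlowData.P7
import Vale.Agent.P154.End.Semi.FlowData.P8
import Vale.Agent.P154.End.Semi.FlowData.P9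
import Vale.Agent.P154.End.Semi.FlowData.P10
import Vale.Agent.P154.End.Semi.FlowData.P11
import Vale.Agent.P154.End.Semi.FlowData.P12
import Vale.Agent.P154.End.Semi.FlowData.P13
import Vale.Agent.P154.End.Semi.FlowData.P14

/-! The parts of the flow certificate together. Generated. -/

namespace Vale.Agent.P154.Q3.End.Semi.FlowData

theorem root : Excluded T Box.root 60 4950 :=
(Excluded.split 0 (-512) (b := ⟨-2048, 1024, 0, 4096, -2048, 1024⟩) (s0 := 60) (s1 := 4950)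
(Excluded.split 1 2048 (b := ⟨-2048, -512, 0, 4096, -2048, 1024⟩) (s0 := 60) (s1 := 4950)
(Excluded.split 0 (-1280) (b := ⟨-2048, -512, 0, 2048, -2048, 1024⟩) (s0 := 60) (s1 := 4950)
P0.excl0
P0.excl1 rfl rfl)
(Excluded.split 0 (-1280) (b := ⟨-2048, -512, 2048, 4096, -2048, 1024⟩) (s0 := 60) (s1 := 4950)
(Excluded.split 2 (-512) (b := ⟨-2048, -1280, 2048, 4096, -2048, 1024⟩) (s0 := 60) (s1 := 4950)
(Excluded.split 1 3072 (b := ⟨-2048, -1280, 2048, 4096, -2048, -512⟩) (s0 := 60) (s1 := 4950)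
P1.excl2
(Excluded.split 0 (-1664) (b := ⟨-2048, -1280, 3072, 4096, -2048, -512⟩) (s0 := 60) (s1 := 4950)
P2.excl3
(Excluded.split 2 (-1280) (b := ⟨-1664, -1280, 3072, 4096, -2048, -512⟩) (s0 := 60) (s1 := 4950)
(P2.excl4 (Excluded.split 1 3584 (b := ⟨-1588, -1280, 3072, 4096, -2048, -1280⟩) (s0 := 60) (s1 := 3866)
P2.excl5
(P3.excl6 (P3.excl7 (Excluded.split 2 (-1664) (b := ⟨-1463, -1280, 3584, 4096, -2048, -1280⟩) (s0 := 60) (s1 := 3456)
P4.excl8
P5.excl9 rfl rfl))) rfl rfl))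
P5.excl10 rfl rfl) rfl rfl) rfl rfl)
P5.excl11 rfl rfl)
(Excluded.split 2 (-512) (b := ⟨-1280, -512, 2048, 4096, -2048, 1024⟩) (s0 := 60) (s1 := 4950)
(P5.excl12 (Excluded.split 1 3072 (b := ⟨-1280, -512, 2048, 4096, -2048, -512⟩) (s0 := 60) (s1 := 3274)
P6.excl13
(Excluded.split 0 (-896) (b := ⟨-1280, -512, 3072, 4096, -2048, -512⟩) (s0 := 60) (s1 := 3274)
(Excluded.split 2 (-1280) (b := ⟨-1280, -896, 3072, 4096, -2048, -512⟩) (s0 := 60) (s1 := 3274)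
(Excluded.split 1 3584 (b := ⟨-1280, -896, 3072, 4096, -2048, -1280⟩) (s0 := 60) (s1 := 3274)
(Excluded.split 0 (-1088) (b := ⟨-1280, -896, 3072, 3584, -2048, -1280⟩) (s0 := 60) (s1 := 3274)
P7.excl14
P8.excl15 rfl rfl)
(Excluded.split 0 (-1088) (b := ⟨-1280, -896, 3584, 4096, -2048, -1280⟩) (s0 := 60) (s1 := 3274)
(Excluded.split 2 (-1664) (b := ⟨-1280, -1088, 3584, 4096, -2048, -1280⟩) (s0 := 60) (s1 := 3274)
(Excluded.split 1 3840 (b := ⟨-1280, -1088, 3584, 4096, -2048, -1664⟩) (s0 := 60) (s1 := 3274)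
P9.excl16
P10.excl17 rfl rfl)
P10.excl18 rfl rfl)
P11.excl19 rfl rfl) rfl rfl)
P12.excl20 rfl rfl)
P13.excl21 rfl rfl) rfl rfl))
P14.excl22 rfl rfl) rfl rfl) rfl rfl)
P14.excl23 rfl rfl)

end Vale.Agent.P154.Q3.End.Semi.FlowData
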