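import Vale.Agent.P154.End.Semi.BoxCert

/-! The templates of the flow certificate. Generated. -/

namespace Vale.Agent.P154.Q3.End.Semi.FlowData

/-- The templates. -/
noncomputable def T : List Tpl :=
  [⟨[10000, 0, 0, 0], [10006, 14, 13, -55], [[-1672, -3409, 550, 306], [-3318, 3556, 247, -1416], [567, 681, -96, -594], [-10, -682, -41, 710]]⟩,
   ⟨[0, 10000, 0, 0], [43, 10094, -34, -139], [[10023, -10804, -1382, 2809], [-10095, 4640, 679, 320], [-1630, 1056, 1110, -1556], [1670, -162, -999, 920]]⟩,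
   ⟨[5235, 3521, -201, 356], [5249, 3521, -201, 356], [[2032, -5258, 581, 1544], [-4357, 3863, -295, -91], [315, 842, -134, -1908], [-73, -708, 92, 1656]]⟩,
   ⟨[0, -10000, 0, 0], [102, -10351, 28, 320], [[-9953, 12111, 1255, -3994], [9702, -4737, -736, -1207], [1681, -1935, -909, 2482], [-1593, 607, 900, -1414]]⟩,
   ⟨[0, 0, 0, 10000], [355, 0, 0, 10000], [[6961, 46211, 8368, -32670], [32237, -19510, -24388, 63879], [11237, -24240, -4748, -6914], [-17770, 19790, 7418, 1434]]⟩,
   ⟨[0, 0, 0, -10000], [2149, -83, -1947, -14066], [[-2770, -23851, -16194, -2466], [-44632, -26336, 45029, 21652], [-9851, 13798, 5333, 16032], [21971, 2445, -14352, -29767]]⟩,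
   ⟨[7855, -2960, 627, -267], [7869, -2960, 627, -267], [[-1210, 2426, -837, -2861], [-145, 1643, -393, -1776], [10, -721, 228, 741], [-2, 125, -40, 39]]⟩,
   ⟨[5024, -2781, 730, -345], [5063, -2781, 730, -345], [[-36, 3483, -1470, -3451], [263, 19, 16, -277], [-411, -1042, 468, 1152], [233, 536, -246, -521]]⟩,
   ⟨[0, 0, 10000, 0], [55555, 126547, -47538, -132990], [[-10270, -125052, 46009, 132720], [2581, 21086, -12010, 9665], [10805, 41325, -17422, -62283], [-11056, -27513, 13076, 42246]]⟩,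
   ⟨[28417, -22762, 9347, -3821], [28583, -22762, 9347, -3821], [[19314, 43145, -22347, -41378], [484, -10987, 3565, 14290], [-8463, -12768, 6707, 10967], [4374, 8040, -3836, -6346]]⟩,
   ⟨[-22430, 3374, -6802, 2561], [-22064, 3374, -6802, 2561], [[-8165, -1505, 1100, 3824], [975, 140, 4720, -7598], [451, 3599, 200, -413], [2630, -3411, -1643, 1198]]⟩,
   ⟨[0, 0, 10000, 0], [5306, 12834, 5954, -10477], [[37912, 1883, -7760, -2904], [2302, -2943, -9210, 33114], [-4379, -659, -30, -17552], [-2462, 479, 2693, 12809]]⟩,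
   ⟨[3359, -2690, 1105, -2846], [4280, 743, -328, -15257], [[241, -3007, -3468, 10945], [-6954, 2499, 6231, -13652], [-2424, 2554, 293, -656], [3890, -2271, -1031, 1433]]⟩,
   ⟨[-3748, 577, -181, 23], [-3746, 577, -181, 23], [[651, -54, 94, 896], [767, -1209, 58, 444], [-94, 272, -216, -347], [-12, -94, 198, 130]]⟩,
   ⟨[5294, -4565, 119, -22], [5339, -4700, 130, 99], [[-4900, 4037, 688, -1943], [2751, -392, -379, -1253], [933, -715, -398, 862], [-704, 88, 373, -250]]⟩,
   ⟨[-2101, 630, 1345, -132], [-2099, 630, 1345, -132], [[7347, 4855, -2556, -4252], [1083, -3323, -1408, 6392], [-1542, -2684, 815, 253], [229, 2391, -189, -597]]⟩,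
   ⟨[8245, -1329, 308, -118], [8257, -1322, 314, -144], [[-1295, -529, -70, -1091], [-1615, 1903, 14, -823], [258, -61, 61, 42], [-1, -120, -62, 248]]⟩]

end Vale.Agent.P154.Q3.End.Semi.FlowData
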